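import Vale.Agent.P352X.R.D1.ThA
import Vale.Agent.P352Z.P352X.Spec

open Vale.Agent.P352G

/-!
# P352X, toolbox for `ell` and `Tht`: coordinates on the cone, norms, representing functions
-/

set_option linter.all false

open MeasureTheory Filter Topology Set
open scoped SchwartzMap ComplexConjugate ENNReal ContDiff

namespace Vale.Agent.P352X.Th

open Vale.Agent.P352 Vale.Agent.P352.GF Vale.Agent.P352.BW Vale.Agent.P352.H246
open Vale.Agent.P352.H496 Vale.Agent.P352.H755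
open UniformSpace (Completion)
open Complex (I)

noncomputable section

section ell

variable {D : Type*} [NormedAddCommGroup D] [InnerProductSpace ℂ D] [GrD D] {c : CtxZ D}
  {ell : (V → ℂ) → Completion D} {c0 : ℝ} (h : EllZ c ell c0) {ψ ψ' : V → ℂ}
include h

lemma ell_sqZ (hψ : MemLp ψ 2 mF) : ‖ell ψ‖ ^ 2 = c0 * ∫ p, ‖ψ p‖ ^ 2 ∂mF := by
  have e := h.inn ψ ψ hψ hψ
  simp only [inner_self_eq_norm_sq_to_K, Complex.conj_mul'] at e
  rw [← Complex.ofReal_inj]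
  push_cast
  rw [← integral_complex_ofReal]
  push_cast
  exact e

lemma ell_subZ (hψ : MemLp ψ 2 mF) (hψ' : MemLp ψ' 2 mF) :
    ell (fun p => ψ p - ψ' p) = ell ψ - ell ψ' := by
  simpa only [neg_one_mul, neg_one_smul, ← sub_eq_add_neg] using h.lin ψ ψ' (-1) hψ hψ'

lemma ell_addZ (hψ : MemLp ψ 2 mF) (hψ' : MemLp ψ' 2 mF) :
    ell (fun p => ψ p + ψ' p) = ell ψ + ell ψ' := by
  simpa only [one_mul, one_smul] using h.lin ψ ψ' 1 hψ hψ'

lemma ell_zeroZ : ell (fun _ => 0) = 0 := by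
  simpa using ell_subZ h (ψ := fun _ => 0) (ψ' := fun _ => 0) MemLp.zero MemLp.zero

lemma ell_smulZ (a : ℂ) (hψ : MemLp ψ 2 mF) : ell (fun p => a * ψ p) = a • ell ψ := by
  simpa only [zero_add, ell_zeroZ h] using h.lin (fun _ => 0) ψ a MemLp.zero hψ

lemma ell_congrZ (hψ : MemLp ψ 2 mF) (e : ψ =ᵐ[mF] ψ') : ell ψ = ell ψ' := by
  have hψ' := hψ.ae_eq e
  rw [← sub_eq_zero, ← ell_subZ h hψ hψ', ← norm_eq_zero, ← sq_eq_zero_iff,
    ell_sqZ h (ψ := fun p => ψ p - ψ' p) (hψ.sub hψ'), integral_congr_ae (g := fun _ => 0),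
    integral_zero, mul_zero]
  filter_upwards [e] with p hp
  simp [hp]

lemma ell_congr'Z (hψ : MemLp ψ 2 mF) (e : ∀ p ∈ Fc, ψ p = ψ' p) : ell ψ = ell ψ' :=
  ell_congrZ h hψ (by filter_upwards [ae_restrict_mem meas_Fc] using e)

lemma ell_prodZ {g : P3 → ℂ} {G : ℝ → ℂ} (hg : MemLp g 2 mP) (hG : MemLp G 2 mI) :
    ‖ell fun p => g (pm p) * G (tc p)‖ ^ 2 = c0 * ((∫ k, ‖g k‖ ^ 2 ∂mP) * ∫ t, ‖G t‖ ^ 2 ∂mI) := by
  rw [ell_sqZ h (mem_prod hg hG), int_prod_sq hg.1 hG.1]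

/-- `ell` as a bounded operator on `L2` -/
def ellLZ : Lp ℂ 2 mF →L[ℂ] Completion D := LinearMap.mkContinuous
  { toFun := fun f => ell f
    map_add' := fun f g => by
      rw [← ell_addZ h (Lp.memLp f) (Lp.memLp g)]
      exact ell_congrZ h (Lp.memLp _) (Lp.coeFn_add f g)
    map_smul' := fun a f => by
      rw [RingHom.id_apply, ← ell_smulZ h a (Lp.memLp f)]
      exact ell_congrZ h (Lp.memLp _) (Lp.coeFn_smul a f) } (Real.sqrt c0) fun f => by
    refine (pow_le_pow_iff_left₀ (norm_nonneg _) (by positivity) two_ne_zero).1 (le_of_eq ?_)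
    show ‖ell f‖ ^ 2 = _
    rw [ell_sqZ h (Lp.memLp f), mul_pow, Real.sq_sqrt h.nonneg, ← inner_self_eq_norm_sq (𝕜 := ℂ) f,
      L2.inner_def, ← integral_re (L2.integrable_inner f f)]
    simp only [inner_self_eq_norm_sq]

lemma ellL_toLpZ (hψ : MemLp ψ 2 mF) : ellLZ h (hψ.toLp ψ) = ell ψ :=
  ell_congrZ h (Lp.memLp _) hψ.coeFn_toLp

/-- **Representing functions.** -/
theorem rieszZ (v : Completion D) : ∃ b : V → ℂ, MemLp b 2 mF ∧
    ∀ ψ, MemLp ψ 2 mF → inner ℂ (ell ψ) v = ∫ p, conj (ψ p) * b p ∂mF := by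
  refine ⟨ContinuousLinearMap.adjoint (ellLZ h) v, Lp.memLp _, fun ψ hψ => ?_⟩
  rw [← ellL_toLpZ h hψ, ← ContinuousLinearMap.adjoint_inner_right, L2.inner_def]
  refine integral_congr_ae ?_
  filter_upwards [hψ.coeFn_toLp] with p hp
  rw [hp, RCLike.inner_apply']

end ell

end

end Vale.Agent.P352X.Th
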