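import Vale.Agent.P352X.R.D1.Fo
import Vale.Agent.P352Z.P352X.R.D1.ThA

open Vale.Agent.P352G

/-!
# P352X, row D1: the vectors `ell (G(p, q) φ^(μ / 2 p))`
-/

set_option linter.all false

open MeasureTheory Filter Topology Set
open scoped SchwartzMap ComplexConjugate ContDiff RealInnerProductSpace

namespace Vale.Agent.P352X.D1Z

open Vale.Agent.P352 Vale.Agent.P352.GF Vale.Agent.P352.H755
open Vale.Agent.P352.BW (Fc)
open FT Th Ap
open UniformSpace (Completion)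
open Complex (I)

noncomputable section

variable {D : Type*} [NormedAddCommGroup D] [InnerProductSpace ℂ D] [GrD D] {c : CtxZ D}
  {ell : (V → ℂ) → Completion D} {c0 : ℝ} (h : EllZ c ell c0) {G : P3 → ℂ} (hG : MemLp G 2 mP)
include h hG

lemma el_le {F : ℝ → ℂ} (hF : MemLp F 2) :
    ‖ell fun p => G (pm p) * F (tc p)‖ ^ 2 ≤ c0 * (∫ k, ‖G k‖ ^ 2 ∂mP) * ∫ t, ‖F t‖ ^ 2 := by
  rw [ell_prodZ h hG (hF.restrict _), mul_assoc]
  exact mul_le_mul_of_nonneg_left (mul_le_mul_of_nonneg_left (setIntegral_le_integral (sq_int hF)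
    (.of_forall fun _ => sq_nonneg _)) (integral_nonneg fun _ => sq_nonneg _)) h.nonneg

/-- the vectors as a linear map -/
def EL0 : 𝓢(ℝ, ℂ) →ₗ[ℂ] Completion D where
  toFun F := ell fun p => G (pm p) * F (tc p)
  map_add' F F' := by
    rw [← ell_addZ h (mem_prod hG ((F.memLp 2).restrict _)) (mem_prod hG ((F'.memLp 2).restrict _))]
    simp only [SchwartzMap.add_apply, mul_add]
  map_smul' a F := by
    rw [RingHom.id_apply, ← ell_smulZ h a (mem_prod hG ((F.memLp 2).restrict _))]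
    simp only [SchwartzMap.smul_apply, smul_eq_mul, mul_left_comm a]

/-- the vectors as a continuous linear map -/
def EL : 𝓢(ℝ, ℂ) →L[ℂ] Completion D where
  toLinearMap := EL0 h hG
  cont := continuous_of_continuousAt_zero (EL0 h hG) (by
    rw [ContinuousAt, map_zero]
    have := ((SchwartzMap.toLpCLM ℂ ℂ 2 (volume : Measure ℝ)).continuous.norm.const_mul
      √(c0 * ∫ k, ‖G k‖ ^ 2 ∂mP)).tendsto 0
    rw [map_zero, norm_zero, mul_zero] at this
    refine squeeze_zero_norm (fun F => abs_le_of_sq_le_sq' ?_ (by positivity) |>.2) this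
    rw [mul_pow, Real.sq_sqrt (mul_nonneg h.nonneg (integral_nonneg fun _ => sq_nonneg _))]
    refine (el_le h hG (F.memLp 2)).trans_eq ?_
    rw [← inner_self_eq_norm_sq (𝕜 := ℂ), L2.inner_def, ← integral_re (L2.integrable_inner _ _)]
    congr 1
    refine integral_congr_ae ?_
    filter_upwards [F.coeFn_toLp 2 volume] with t ht
    rw [inner_self_eq_norm_sq, SchwartzMap.toLpCLM_apply, ht])

/-- `φ ↦ ell (G(p, q) φ^(μ / 2 p))` -/
def La : 𝓢(ℝ, ℂ) →L[ℂ] Completion D := EL h hG ∘L _root_.Vale.Agent.P352X.D1.d1.F.toContinuousLinearMap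

lemma La_apply (φ : 𝓢(ℝ, ℂ)) : La h hG φ = ell fun p => G (pm p) * ft1 φ (tc p) := by
  rw [_root_.Vale.Agent.P352X.D1.ft1_eq, ← _root_.Vale.Agent.P352X.D1.d1.coe_F]
  rfl

lemma La_le (φ : 𝓢(ℝ, ℂ)) :
    ‖La h hG φ‖ ^ 2 ≤ c0 * (∫ k, ‖G k‖ ^ 2 ∂mP) * (2 * Real.pi) * ∫ t, ‖φ t‖ ^ 2 := by
  rw [La_apply, mul_assoc, ← _root_.Vale.Agent.P352X.D1.planch (sw_coe φ)]
  exact el_le h hG (_root_.Vale.Agent.P352X.D1.l2 (_root_.Vale.Agent.P352X.D1.sw_ft1 (sw_coe φ)))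

lemma Tht_eq {γ : P3 → ℂ} (e : ∀ k, G k = -(I * k.1) * γ k) {φ : ℝ → ℝ} (hφ : Tst φ) :
    Tht ell γ φ = (6 : ℂ) • La h hG (SchwartzMap.derivCLM ℂ ℂ (sch (cx φ))) := by
  have k : ∀ t, ft1 (SchwartzMap.derivCLM ℂ ℂ (sch (cx φ))) t = -(I * t) * ft1 (cx φ) t := fun t => by
    have := gft_deriv_sch (B := _root_.Vale.Agent.P352X.D1.d1.B) (sch (cx φ)) 1 t
    rw [← _root_.Vale.Agent.P352X.D1.ft1_eq, ← _root_.Vale.Agent.P352X.D1.ft1_eq, show _root_.Vale.Agent.P352X.D1.d1.B t 1 = t from mul_one t] at this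
    exact this.trans (by rw [coe_sch (f := cx φ) (tst_sw hφ)])
  have m := mem_prod hG ((_root_.Vale.Agent.P352X.D1.l2 (_root_.Vale.Agent.P352X.D1.sw_ft1 (sw_coe (SchwartzMap.derivCLM ℂ ℂ (sch (cx φ)))))).restrict _)
  rw [La_apply, Tht, show (6 : ℂ) = -3 * -2 by norm_num, mul_smul, ← ell_smulZ h _ m]
  refine congrArg _ (ell_congr'Z h (m.const_mul _) fun p hp => ?_).symm
  rw [k, e, ← tc, mu_tc hp, pm_1]
  push_cast
  linear_combination (-2 * be p * tc p * γ (pm p) * ft1 (cx φ) (tc p)) * Complex.I_mul_I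

omit hG in
/-- the difference of the two Fourier variables -/
lemma near {g : P3 → ℂ} (hg : Sw g) (hG : MemLp (ft3 (_root_.Vale.Agent.P352X.D1.da g)) 2 mP) : ∃ C : ℝ, ∀ φ : ℝ → ℝ, Tst φ →
    IsTest (pf (_root_.Vale.Agent.P352X.D1.da g) (cx φ)) →
    ‖La h hG (sch (cx φ)) - c.l (pf (_root_.Vale.Agent.P352X.D1.da g) (cx φ))‖ ^ 2 ≤ C * ∫ t, (t * φ t) ^ 2 := by
  have := _root_.Vale.Agent.P352X.D1.haar3
  have q := fun i : Fin 2 => ((ContinuousLinearMap.proj i : R2 →L[ℝ] ℝ) ∘L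
    ContinuousLinearMap.snd ℝ ℝ R2).hasTemperateGrowth
  have h1 : MemLp (fun k : P3 => ((d2 k.2 k.2 : ℝ) : ℂ) * ft3 g k) 2 mP :=
    (_root_.Vale.Agent.P352X.D1.l2 (sw_rmul (u := fun k : P3 => d2 k.2 k.2) (((q 0).mul (q 0)).add ((q 1).mul (q 1)))
      (_root_.Vale.Agent.P352X.D1.sw_ft3 hg))).restrict _
  refine ⟨c0 * ((∫ k, ‖((d2 k.2 k.2 : ℝ) : ℂ) * ft3 g k‖ ^ 2 ∂mP) * (2 * Real.pi)),
    fun φ hφ ht => ?_⟩
  have s1 : Sw (ft1 (cx φ)) := _root_.Vale.Agent.P352X.D1.sw_ft1 (tst_sw hφ)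
  have s2 : Sw (ft3 (_root_.Vale.Agent.P352X.D1.da g)) := _root_.Vale.Agent.P352X.D1.sw_ft3 (sw_fderiv _ hg)
  have m1 := mem_prod hG ((_root_.Vale.Agent.P352X.D1.l2 s1).restrict _)
  have m2 : MemLp (fun p => ft3 (_root_.Vale.Agent.P352X.D1.da g) (pm p) * ft1 (cx φ) (al p)) 2 mF :=
    (sc_pt'.mul_memLp (by simp) (_root_.Vale.Agent.P352X.D1.l2 s2) (_root_.Vale.Agent.P352X.D1.l2 s1)).restrict _
  have c1 := (sw_cont s1).measurable
  have c2 := (sw_cont s2).measurable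
  have p0 : 0 ≤ ∫ t, (t * φ t) ^ 2 := integral_nonneg fun _ => sq_nonneg _
  rw [La_apply, coe_sch (f := cx φ) (tst_sw hφ), ← h.pot _ ht, funext (_root_.Vale.Agent.P352X.D1.ft_pf _ _),
    ← ell_subZ h m1 m2, ell_sqZ h (ψ := fun p => _ - _) (m1.sub m2), mul_assoc, mul_assoc]
  refine mul_le_mul_of_nonneg_left ?_ h.nonneg
  set F : P3 × ℝ → ℝ := fun y =>
    ‖ft3 (_root_.Vale.Agent.P352X.D1.da g) y.1‖ ^ 2 * ‖ft1 (cx φ) y.2 - ft1 (cx φ) (y.2 + sh y.1)‖ ^ 2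
  rw [integral_congr_ae (g := fun p => F (pm p, tc p)) (by
    filter_upwards [ae_restrict_mem meas_Fc] with p hp
    simp only [F, tc_eq ((mem_Fc p).1 hp).1.ne', sub_add_cancel, ← mul_sub, norm_mul, mul_pow]),
    int_crd (Measurable.aestronglyMeasurable (by fun_prop))]
  by_cases i : Integrable F (mP.prod Th.mI)
  swap
  · rw [integral_undef i]
    exact mul_nonneg (integral_nonneg fun _ => sq_nonneg _) (by positivity)
  rw [integral_prod _ i, ← integral_mul_const]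
  refine integral_mono_of_nonneg (.of_forall fun _ => integral_nonneg fun _ => by positivity)
    ((sq_int h1).mul_const _) ?_
  filter_upwards [ae_restrict_mem meas_pos] with k hk
  simp only [F, integral_const_mul]
  refine (mul_le_mul_of_nonneg_left (_root_.Vale.Agent.P352X.D1.shift hφ _) (sq_nonneg _)).trans ?_
  rw [← mul_assoc]
  refine mul_le_mul_of_nonneg_right ?_ (by positivity)
  have k0 : k.1 ≠ 0 := hk.ne'
  simp only [_root_.Vale.Agent.P352X.D1.ft3_da hg, norm_mul, norm_neg, Complex.norm_I, Complex.norm_real, mul_pow, sh,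
    Real.norm_eq_abs, sq_abs, one_pow, one_mul, div_pow]
  field_simp
  nlinarith [sq_nonneg (‖ft3 g k‖ * d2 k.2 k.2)]

end

end Vale.Agent.P352X.D1Z
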